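import Crest.Agent.N221.T6.Defs

/-!
Row 221, step P6, algebra (helper67): a product of two nonzero harmonic homogeneous polynomials
does not agree on the unit sphere with a polynomial of lower degree (`|x|²` is prime).
-/

set_option autoImplicit false

open MvPolynomial
open Crest.Agent.R086 Crest.Agent.R086.SH

noncomputable section

namespace Crest.Agent.N221

namespace T6

open Car

/-- a homogeneous polynomial vanishing on the unit sphere is zero -/
theorem hom_eq_zero_of_sphere {n d : ℕ} (hn : 1 ≤ n) {R : MvPolynomial (Fin n) ℝ}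
    (hR : R.IsHomogeneous d)
    (h : ∀ v : EuclideanSpace ℝ (Fin n), ‖v‖ = 1 → pfun R v = 0) : R = 0 := by
  apply MvPolynomial.funext
  intro x
  have key : ∀ v : EuclideanSpace ℝ (Fin n), pfun R v = 0 := by
    intro v
    obtain ⟨u, hu, hv⟩ : ∃ u : EuclideanSpace ℝ (Fin n), ‖u‖ = 1 ∧ v = ‖v‖ • u := by
      by_cases h0 : v = 0
      · refine ⟨EuclideanSpace.single (⟨0, hn⟩ : Fin n) 1, by simp, ?_⟩
        rw [h0]; simp
      · have hne : ‖v‖ ≠ 0 := norm_ne_zero_iff.2 h0
        refine ⟨‖v‖⁻¹ • v, ?_, ?_⟩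
        · rw [norm_smul, norm_inv, norm_norm, inv_mul_cancel₀ hne]
        · rw [smul_smul, mul_inv_cancel₀ hne, one_smul]
    rw [hv, pfun_smul_of_hom hR, h u hu, mul_zero]
  have := key (WithLp.toLp 2 x)
  simpa [pfun] using this

/-- `|x|²` is prime in at least two variables -/
theorem rho_prime {n : ℕ} (hn : 2 ≤ n) : Prime (rho : MvPolynomial (Fin n) ℝ) := by
  obtain ⟨m, rfl⟩ : ∃ m, n = m + 1 := ⟨n - 1, by omega⟩
  have hm : 1 ≤ m := by omega
  have himg : finSuccEquiv ℝ m (rho : MvPolynomial (Fin (m + 1)) ℝ) =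
      Polynomial.X ^ 2 + Polynomial.C (rho : MvPolynomial (Fin m) ℝ) := by
    simp only [rho, Fin.sum_univ_succ, map_add, map_pow, map_sum, finSuccEquiv_X_zero,
      finSuccEquiv_X_succ]
  have hmon : (Polynomial.X ^ 2 + Polynomial.C (rho : MvPolynomial (Fin m) ℝ)).Monic :=
    Polynomial.monic_X_pow_add_C _ (by norm_num)
  have hdeg : (Polynomial.X ^ 2 + Polynomial.C (rho : MvPolynomial (Fin m) ℝ)).natDegree = 2 :=
    Polynomial.natDegree_X_pow_add_C
  have hirr : Irreducible (Polynomial.X ^ 2 + Polynomial.C (rho : MvPolynomial (Fin m) ℝ)) := by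
    rw [hmon.irreducible_iff_roots_eq_zero_of_degree_le_three (by omega) (by omega)]
    apply Multiset.eq_zero_of_forall_notMem
    intro r hr
    have h1 := (Polynomial.mem_roots hmon.ne_zero).1 hr
    simp only [Polynomial.IsRoot.def, Polynomial.eval_add, Polynomial.eval_pow, Polynomial.eval_X,
      Polynomial.eval_C] at h1
    have h2 := congrArg (MvPolynomial.eval (fun _ : Fin m => (1 : ℝ))) h1
    simp only [rho, map_add, map_pow, map_sum, eval_X, one_pow, Finset.sum_const,
      Finset.card_univ, Fintype.card_fin, nsmul_eq_mul, mul_one, map_zero] at h2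
    have h3 : (1 : ℝ) ≤ m := by exact_mod_cast hm
    nlinarith [sq_nonneg (MvPolynomial.eval (fun _ : Fin m => (1 : ℝ)) r)]
  have hirr' : Irreducible (rho : MvPolynomial (Fin (m + 1)) ℝ) := by
    rw [← himg] at hirr
    exact (MulEquiv.irreducible_iff (finSuccEquiv ℝ m).toMulEquiv).1 hirr
  exact hirr'.prime

/-- a homogeneous polynomial of degree `d` that agrees on the sphere with a polynomial of lower
degree is a multiple of `|x|²` -/
theorem rho_dvd_of_sphere {n d : ℕ} (hn : 1 ≤ n) {P q : MvPolynomial (Fin n) ℝ}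
    (hP : P.IsHomogeneous d) (hq : ∀ s : Fin n →₀ ℕ, d ≤ s.degree → coeff s q = 0)
    (h : ∀ v : EuclideanSpace ℝ (Fin n), ‖v‖ = 1 → pfun P v = pfun q v) : rho ∣ P := by
  classical
  -- `q` is the sum of its components of degree `< d`
  have hsum : q = ∑ j ∈ Finset.range d, homogeneousComponent j q := by
    ext s
    rw [coeff_sum]
    simp only [coeff_homogeneousComponent]
    rw [Finset.sum_ite_eq]
    split_ifs with hs
    · rfl
    · exact hq s (by simpa using hs)
  set c : ℕ → MvPolynomial (Fin n) ℝ := fun j =>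
    if Even (d - j) then rho ^ ((d - j) / 2 - 1) * homogeneousComponent j q else 0 with hc
  have hR : (P - rho * ∑ j ∈ Finset.range d, c j).IsHomogeneous d := by
    refine hP.sub ?_
    rw [Finset.mul_sum]
    refine IsHomogeneous.sum _ _ _ (fun j hj => ?_)
    have hj' : j < d := Finset.mem_range.1 hj
    by_cases he : Even (d - j)
    · simp only [hc, he, if_true]
      have h1 := (rho_hom (d := n)).mul
        (((rho_hom (d := n)).pow ((d - j) / 2 - 1)).mul (homogeneousComponent_isHomogeneous j q))
      obtain ⟨t, ht⟩ := he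
      have h2 : 2 + (2 * ((d - j) / 2 - 1) + j) = d := by omega
      rwa [h2] at h1
    · simp only [hc, he, if_false, mul_zero]
      exact isHomogeneous_zero _ _ _
  have hzero : P - rho * ∑ j ∈ Finset.range d, c j = 0 := by
    refine hom_eq_zero_of_sphere hn hR (fun v hv => ?_)
    have h1 : pfun P v = ∑ j ∈ Finset.range d, pfun (homogeneousComponent j q) v := by
      rw [h v hv, ← pfun_sum, ← hsum]
    have h2 : (-1 : ℝ) ^ d * pfun P v =
        ∑ j ∈ Finset.range d, (-1 : ℝ) ^ j * pfun (homogeneousComponent j q) v := by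
      have h3 := h ((-1 : ℝ) • v) (by rw [norm_smul, hv]; simp)
      rw [pfun_smul_of_hom hP] at h3
      rw [h3]
      conv_lhs => rw [hsum, pfun_sum]
      refine Finset.sum_congr rfl (fun j _ => ?_)
      exact pfun_smul_of_hom (homogeneousComponent_isHomogeneous j q) _ _
    have hrho : pfun (rho : MvPolynomial (Fin n) ℝ) v = 1 := by rw [pfun_rho, hv]; norm_num
    have h4 : ∀ j ∈ Finset.range d, 2 * pfun (c j) v = pfun (homogeneousComponent j q) v +
        (-1 : ℝ) ^ d * ((-1 : ℝ) ^ j * pfun (homogeneousComponent j q) v) := by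
      intro j hj
      have hj' : j < d := Finset.mem_range.1 hj
      have hs : (-1 : ℝ) ^ d * (-1 : ℝ) ^ j = (-1 : ℝ) ^ (d - j) := by
        have : d = (d - j) + j := by omega
        conv_lhs => rw [this, pow_add, mul_assoc, ← pow_add, ← two_mul, pow_mul]
        simp
      rw [← mul_assoc, hs]
      by_cases he : Even (d - j)
      · have hp : pfun ((rho : MvPolynomial (Fin n) ℝ) ^ ((d - j) / 2 - 1)) v = 1 := by
          have : pfun ((rho : MvPolynomial (Fin n) ℝ) ^ ((d - j) / 2 - 1)) v =
              pfun (rho : MvPolynomial (Fin n) ℝ) v ^ ((d - j) / 2 - 1) := by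
            simp only [pfun, map_pow]
          rw [this, hrho, one_pow]
        simp only [hc, he, if_true, pfun_mul, hp, he.neg_one_pow]
        ring
      · have ho : Odd (d - j) := Nat.not_even_iff_odd.1 he
        simp only [hc, he, if_false, ho.neg_one_pow]
        simp [pfun]
    have h5 : 2 * pfun (∑ j ∈ Finset.range d, c j) v = 2 * pfun P v := by
      rw [pfun_sum, Finset.mul_sum, Finset.sum_congr rfl h4, Finset.sum_add_distrib,
        ← Finset.mul_sum, ← h1, ← h2, ← mul_assoc, ← pow_add, ← two_mul, pow_mul]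
      simp only [even_two, Even.neg_pow, one_pow, one_mul]
      ring
    have h6 : pfun (P - rho * ∑ j ∈ Finset.range d, c j) v =
        pfun P v - pfun (rho : MvPolynomial (Fin n) ℝ) v *
          pfun (∑ j ∈ Finset.range d, c j) v := by
      simp only [pfun, map_sub, map_mul]
    rw [h6, hrho]
    linarith
  exact ⟨_, sub_eq_zero.1 hzero⟩

/-- a harmonic multiple of `|x|²` is zero -/
theorem harm_eq_zero_of_rho_dvd {n l : ℕ} (hn : 1 ≤ n) {p : MvPolynomial (Fin n) ℝ}
    (hp : Sph.Harm l p) (h : rho ∣ p) : p = 0 := by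
  have : NeZero n := ⟨by omega⟩
  obtain ⟨r, rfl⟩ := h
  have h1 : plap (rho * r) = 0 := hp.harm
  rw [plap_rho_mul_injective h1, mul_zero]

theorem algS : AlgS := by
  intro n hn k J p A q hp hA hq h
  have hdvd : (rho : MvPolynomial (Fin n) ℝ) ∣ p * A :=
    rho_dvd_of_sphere (by omega) (hp.hom.mul hA.hom) hq h
  rcases (rho_prime (n := n) (by omega)).dvd_or_dvd hdvd with h1 | h1
  · exact Or.inl (harm_eq_zero_of_rho_dvd (by omega) hp h1)
  · exact Or.inr (harm_eq_zero_of_rho_dvd (by omega) hA h1)

end T6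

end Crest.Agent.N221
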