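import Crest.Agent.N221.T6.Defs
import Crest.Agent.N221.Car.BrFrm

/-!
Row 221, step P6 (helper34): the lift of a Killing pair acts through the Poisson bracket.
-/

set_option autoImplicit false

open MvPolynomial MeasureTheory Set Function Filter Topology
open scoped ContDiff RealInnerProductSpace
open Crest.GeometryTopology.Submanifold
open Crest.Agent.R241.DDefs Crest.Agent.R241.D2
open Crest.Agent.R208.J Crest.Agent.R208.L
open Crest.Agent.R086 Crest.Agent.R086.SH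

noncomputable section

namespace Crest.Agent.N221.T6

open Car Crest.Agent.N221.Frm

variable {n N : ℕ} {a : ℝ} {S : Set (Euc N)} {G : Geo n N (-(a ^ 2)) S} {C : Cov G} (Φ : Frm C)
variable {x v : Euc n}

lemma hasFDerivAt_nrm (hv : ‖v‖ = 1) :
    HasFDerivAt (fun y : Euc n => ‖y‖⁻¹ • y) (piO v) v := by
  have h1 : HasFDerivAt (fun y : Euc n => ‖y‖) (innerSL ℝ v) v := by
    have h := (hasStrictFDerivAt_norm_sq v).hasFDerivAt.sqrt (by rw [hv]; norm_num)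
    simp only [Real.sqrt_sq (norm_nonneg _), hv] at h
    refine h.congr_fderiv ?_
    ext y; simp
  have h2 := (hasFDerivAt_inv (by rw [hv]; norm_num : ‖v‖ ≠ 0)).comp v h1
  refine (h2.smul (hasFDerivAt_id v)).congr_fderiv ?_
  ext1 y
  simp [piO, hv, sub_eq_add_neg]

/-- normalisation of the fibre variable -/
def nm (z : Euc n × Euc n) : Euc n × Euc n := (z.1, ‖z.2‖⁻¹ • z.2)

/-- the unit vector field of the frame model -/
def VV (z : Euc n × Euc n) : Euc N := Φ.O z.1 (‖z.2‖⁻¹ • z.2)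

lemma nm_self (hv : ‖v‖ = 1) : nm (x, v) = (x, v) := by simp [nm, hv]

lemma VV_self (hv : ‖v‖ = 1) : VV Φ (x, v) = Φ.O x v := by simp [VV, hv]

lemma hasFDerivAt_nrm2 (hv : ‖v‖ = 1) : HasFDerivAt (fun z : Euc n × Euc n => ‖z.2‖⁻¹ • z.2)
    (piO v ∘L ContinuousLinearMap.snd ℝ (Euc n) (Euc n)) (x, v) :=
  HasFDerivAt.comp (g := fun y : Euc n => ‖y‖⁻¹ • y) (f := Prod.snd) (x, v) (hasFDerivAt_nrm hv)
    hasFDerivAt_snd

lemma hasFDerivAt_nm (hv : ‖v‖ = 1) : HasFDerivAt (nm (n := n))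
    ((ContinuousLinearMap.fst ℝ (Euc n) (Euc n)).prod
      (piO v ∘L ContinuousLinearMap.snd ℝ (Euc n) (Euc n))) (x, v) :=
  (hasFDerivAt_fst (𝕜 := ℝ) (p := (x, v))).prodMk (hasFDerivAt_nrm2 hv)

lemma ev_ne (hv : ‖v‖ = 1) : ∀ᶠ z : Euc n × Euc n in 𝓝 (x, v), ‖‖z.2‖⁻¹ • z.2‖ = 1 := by
  have h : ∀ᶠ z : Euc n × Euc n in 𝓝 (x, v), z.2 ≠ 0 :=
    continuous_snd.continuousAt.eventually_ne (show v ≠ 0 from fun h => by simp [h] at hv)
  exact h.mono fun z hz => norm_smul_inv_norm (𝕜 := ℝ) hz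

lemma un_VV (hv : ‖v‖ = 1) : ∀ᶠ z : Euc n × Euc n in 𝓝 (x, v), C.Un z.1 (VV Φ z) :=
  (ev_ne hv).mono fun _ hz => Φ.un hz

lemma piO_of (δ : Euc n) (h : ⟪v, δ⟫ = 0) : piO v δ = δ := by simp [piO, h]

lemma VV_diff (hv : ‖v‖ = 1) : DifferentiableAt ℝ (VV Φ) (x, v) ∧
    ∀ z δ, ⟪v, δ⟫ = 0 → fderiv ℝ (VV Φ) (x, v) (z, δ) = Φ.dO x z v + Φ.O x δ := by
  have h1 : HasFDerivAt (fun q : Euc n × Euc n => Φ.O q.1)
      ((fderiv ℝ Φ.O x).comp (ContinuousLinearMap.fst ℝ _ _)) (x, v) :=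
    (Φ.diff_O x).hasFDerivAt.comp (x, v) hasFDerivAt_fst
  have h2 : HasFDerivAt (VV Φ) _ (x, v) := h1.clm_apply (hasFDerivAt_nrm2 hv)
  refine ⟨h2.differentiableAt, fun z δ hδ => ?_⟩
  rw [h2.fderiv, dO_apply]
  simp [hv, piO_of δ hδ, add_comm]

lemma fderiv_eq_ev {F : Euc n → Euc N → ℝ} {P : PP n} (hP : SmU (ev P))
    (h : ∀ x v, ‖v‖ = 1 → F x (Φ.O x v) = ev P x v) (hv : ‖v‖ = 1) (z δ : Euc n)
    (hδ : ⟪v, δ⟫ = 0) : fderiv ℝ (fun q : Euc n × Euc n => F q.1 (VV Φ q)) (x, v) (z, δ) =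
      fderiv ℝ (uncurry (ev P)) (x, v) (z, δ) := by
  have e : (fun q : Euc n × Euc n => F q.1 (VV Φ q)) =ᶠ[𝓝 (x, v)] uncurry (ev P) ∘ nm :=
    (ev_ne hv).mono fun q hq => h _ _ hq
  have h1 : HasFDerivAt (uncurry (ev P)) (fderiv ℝ (uncurry (ev P)) (x, v)) (nm (x, v)) := by
    rw [nm_self hv]; exact (ContDiff.differentiable hP (by simp) _).hasFDerivAt
  rw [e.fderiv_eq, (h1.comp (x, v) (hasFDerivAt_nm hv)).fderiv]
  simp [piO_of δ hδ]

lemma inner_omv (F : Fr n) (i : Fin n) (x v : Euc n) : ⟪v, F.omv i x v⟫ = 0 := by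
  have h : ⟪v, F.omv i x v⟫ = ∑ p, ∑ q, (F.om i p q).1 x * v q * v p := by
    rw [PiLp.inner_apply]
    exact Finset.sum_congr rfl fun p _ => by
      show (∑ q, (F.om i p q).1 x * v q) * v p = _
      rw [Finset.sum_mul]
  have h2 : ∑ p, ∑ q, (F.om i p q).1 x * v q * v p =
      -∑ p, ∑ q, (F.om i p q).1 x * v q * v p := by
    conv_lhs => rw [Finset.sum_comm]
    simp only [← Finset.sum_neg_distrib]
    refine Finset.sum_congr rfl fun p _ => Finset.sum_congr rfl fun q _ => ?_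
    rw [F.skew i q p, Co.sm_neg]; ring
  linarith

/-- the horizontal direction -/
def hor (x v : Euc n) (i : Fin n) : Euc n × Euc n := (Φ.E x (ε i), -Φ.fr.omv i x v)

lemma fderiv_VV_hor (hv : ‖v‖ = 1) (i : Fin n) : fderiv ℝ (VV Φ) (x, v) (hor Φ x v i) =
    II G (C.pr x) (Φ.O x (ε i)) (Φ.O x v) := by
  rw [hor, (VV_diff Φ hv).2 _ _ (by rw [inner_neg_right, inner_omv, neg_zero]), gauss, map_neg]
  abel

variable {Y Y' : Euc n → Euc n} {f f' : Euc n → ℝ} {hh : ℝ} {φ : Euc n → ℝ} {P A : PP n}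

lemma lift (hE : EvS) (h : SH G) (hK : C.Kill Y f Y' f')
    (hφ : ∀ ξ, ‖ξ‖ = 1 → ContDiffAt ℝ ∞ φ ξ)
    (hA : ∀ x v, ‖v‖ = 1 → C.uu hh φ x (Φ.O x v) = ev A x v) (hv : ‖v‖ = 1) {k j' : Euc n}
    (hk : Φ.O x k = C.jK Y Y' x (Φ.O x v) + C.muK Y f x (Φ.O x v) • Φ.O x v)
    (hj : Φ.O x j' = C.jK' Y Y' x (Φ.O x v)) (hj0 : ⟪v, j'⟫ = 0) :
    C.uu hh (fun ξ => fderiv ℝ φ ξ (Y ξ) + hh * f ξ * φ ξ) x (Φ.O x v) =
      ∑ i, k i * ev (Φ.fr.alg.nab i A) x v + ∑ i, j' i * ev (pderiv i A) x v := by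
  have hx := C.pr_mem x
  set δ : Euc n × Euc n := ∑ i, k i • hor Φ x v i + (0, j') with hδ
  have hV := VV_diff Φ (x := x) hv
  have h1 := C.fderiv_Psi_lift h hK (X := Prod.fst) (V := VV Φ) (z := (x, v))
    differentiableAt_fst hV.1 (un_VV Φ hv) δ
    (by
      rw [VV_self Φ hv, ← hk, fderiv_fst, Φ.O_sum x k, hδ]
      simp only [map_add, map_sum, map_smul, ContinuousLinearMap.coe_fst', hor, add_zero]
      exact Finset.sum_congr rfl fun i _ => congrArg _ (Φ.pr_E x _))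
    (by
      rw [VV_self Φ hv, ← hj, hδ]
      simp only [map_add, map_sum, map_smul, fderiv_VV_hor Φ hv,
        II_normal G hx (Φ.O_mem _ _) (Φ.O_mem _ _), smul_zero, Finset.sum_const_zero, zero_add]
      rw [hV.2 _ _ hj0]
      simp only [dO, map_zero, zero_add]
      exact (P_eq_self G hx).1 (Φ.O_mem _ _))
  have h2 := (C.differentiableAt_Psi h (X := Prod.fst) (V := VV Φ) (z := (x, v))
    differentiableAt_fst hV.1 (un_VV Φ hv)).hasFDerivAt
  have hξ : ‖(C.PsiB x (VV Φ (x, v))).1.1‖ = 1 := by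
    rw [VV_self Φ hv]; exact C.norm_ep h.hyp.a_pos (Φ.un hv)
  have h3 : HasFDerivAt (fun q : Euc n × Euc n => C.uu hh φ q.1 (VV Φ q)) _ (x, v) :=
    ((h2.snd.const_mul hh).exp).mul (HasFDerivAt.comp (x, v) ((hφ _ hξ).differentiableAt (by simp)).hasFDerivAt h2.fst.fst)
  have h4 : fderiv ℝ (fun q : Euc n × Euc n => C.uu hh φ q.1 (VV Φ q)) (x, v) δ =
      C.uu hh (fun ξ => fderiv ℝ φ ξ (Y ξ) + hh * f ξ * φ ξ) x (Φ.O x v) := by
    rw [h3.fderiv]
    simp only [add_apply, smul_apply, ContinuousLinearMap.comp_apply, h1,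
      ContinuousLinearMap.coe_fst', ContinuousLinearMap.coe_snd', smul_eq_mul,
      VV_self Φ hv, Cov.uu, show (C.PsiB x (Φ.O x v)).1.1 = C.ep x (Φ.O x v) from rfl]
    ring
  rw [← h4, hδ, map_add, map_sum, fderiv_eq_ev Φ (hE n A).1 hA hv _ _ hj0, (hE n A).2.1]
  congr 1
  refine Finset.sum_congr rfl fun i _ => ?_
  rw [map_smul, hor, fderiv_eq_ev Φ (hE n A).1 hA hv _ _
    (by rw [inner_neg_right, inner_omv, neg_zero]), ← (hE n A).2.2]
  rfl

lemma ev_Eu (P : PP n) (x v : Euc n) : ev (Eu P) x v = ∑ i, v i * ev (pderiv i P) x v := by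
  simp [ev, Eu, Co.ax_sum, Co.ax_mul, Co.ax_X, pfun]

theorem brS (hE : EvS) : BrS := by
  intro n N a S G C Φ h Y f Y' f' hK hh φ hφ P A hP hA x v hv
  have hx := C.pr_mem x
  have hu := Φ.un (x := x) hv
  have hV := VV_diff Φ (x := x) hv
  obtain ⟨m1, m2⟩ := mem_Vp.1 (C.jK_mem h (Y := Y) (Y' := Y') hu)
  obtain ⟨m1', m2'⟩ := mem_Vp.1 (C.jK'_mem h (Y := Y) (Y' := Y') hu)
  obtain ⟨j, hj⟩ := Φ.O_surj x m1
  obtain ⟨j', hj'⟩ := Φ.O_surj x m1'
  have o1 : ⟪v, j⟫ = 0 := by rw [← Φ.inner_O x, hj, real_inner_comm]; exact m2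
  have o2 : ⟪v, j'⟫ = 0 := by rw [← Φ.inner_O x, hj', real_inner_comm]; exact m2'
  have hm := (C.fderiv_muK h hK (X := Prod.fst) (V := VV Φ) (z := (x, v))
    differentiableAt_fst hV.1 (un_VV Φ hv)).2
  simp only [VV_self Φ hv, fderiv_fst, ContinuousLinearMap.coe_fst'] at hm
  have e1 : ∀ i, j i = ev (pderiv i P) x v - v i * ev (Eu P) x v := by
    intro i
    have t : ⟪v, (ε i : Euc n) - v i • v⟫ = 0 := by
      rw [inner_sub_right, inner_smul_right, real_inner_self_eq_norm_sq, hv]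
      simp [EuclideanSpace.inner_single_right]
    have h1 := hm (0, ε i - v i • v)
    rw [fderiv_eq_ev Φ (hE n P).1 hP hv _ _ t, (hE n P).2.1, hV.2 _ _ t, ← hj] at h1
    simp only [dO, map_zero, zero_add, Φ.inner_O, inner_zero_left, sub_zero, inner_sub_left,
      inner_smul_left, o1, mul_zero] at h1
    rw [ev_Eu, Finset.mul_sum]
    simp only [PiLp.sub_apply, PiLp.smul_apply, smul_eq_mul, sub_mul, Finset.sum_sub_distrib,
      mul_assoc] at h1
    simpa [EuclideanSpace.inner_single_left, Pi.single_apply] using h1.symm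
  have e2 : ∀ i, j' i = -ev (Φ.fr.alg.nab i P) x v := by
    intro i
    have h1 := hm (hor Φ x v i)
    rw [fderiv_VV_hor Φ hv, inner_II G hx (Φ.O_mem _ _) (Φ.O_mem _ _) m1, hor,
      fderiv_eq_ev Φ (hE n P).1 hP hv _ _ (by rw [inner_neg_right, inner_omv, neg_zero]),
      ← hj', show C.Dp x (Φ.E x (ε i)) = Φ.O x (ε i) from Φ.pr_E x _, Φ.inner_O] at h1
    rw [← (hE n P).2.2, show Φ.fr.nabU i (ev P) x v = _ from h1]
    simp [EuclideanSpace.inner_single_left]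
  have k0 : C.Kill (fun _ => 0) (fun _ => 1) (fun _ => 0) (fun _ => -1) :=
    ⟨fun _ _ => contDiffAt_const, fun _ _ => contDiffAt_const, fun _ _ => contDiffAt_const,
      fun _ _ => contDiffAt_const, fun _ _ => by simp, fun _ _ => by simp, fun _ _ _ => by simp⟩
  have e3 := lift Φ hE h k0 hφ hA hv (x := x) (k := v) (j' := 0) (by simp [Cov.jK, Cov.muK])
    (by simp [Cov.jK', Cov.jK]) (by simp)
  have e4 : ∑ i, v i * ev (Φ.fr.alg.nab i A) x v = hh * ev A x v := by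
    rw [← hA x v hv]
    simp only [PiLp.zero_apply, zero_mul, Finset.sum_const_zero, add_zero] at e3
    rw [← e3]
    simp only [Cov.uu, map_zero]
    ring
  rw [lift Φ hE h hK hφ hA hv (k := j + ev P x v • v) (j' := j')
    (by rw [map_add, map_smul, hj, hP x v hv]) hj' o2]
  have e5 : ev (br Φ.fr P A + hh • ((P - Eu P) * A)) x v =
      ∑ i, (ev (pderiv i P) x v * ev (Φ.fr.alg.nab i A) x v -
        ev (Φ.fr.alg.nab i P) x v * ev (pderiv i A) x v) +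
      hh * ((ev P x v - ev (Eu P) x v) * ev A x v) := by
    simp [ev, br, Co.ax_sum, Co.ax_mul, Co.ax_add, Co.ax_sub, Co.ax_smul, pfun]
  have e6 : ∑ i, (j + ev P x v • v) i * ev (Φ.fr.alg.nab i A) x v =
      ∑ i, ev (pderiv i P) x v * ev (Φ.fr.alg.nab i A) x v +
      (ev P x v - ev (Eu P) x v) * ∑ i, v i * ev (Φ.fr.alg.nab i A) x v := by
    rw [Finset.mul_sum, ← Finset.sum_add_distrib]
    refine Finset.sum_congr rfl fun i _ => ?_
    rw [PiLp.add_apply, PiLp.smul_apply, e1, smul_eq_mul]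
    ring
  rw [e5, e6, e4, Finset.sum_sub_distrib]
  simp only [e2, neg_mul, Finset.sum_neg_distrib]
  ring

end Crest.Agent.N221.T6
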