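import Crest.Agent.N221.T6.Defs
import Crest.Agent.N221.Car.BrAll

/-!
Row 221, step P6: derivatives of `ev` (`EvS`) and finite degree for families given on unit
vectors (`FamS`).
-/

set_option autoImplicit false

open MvPolynomial MeasureTheory Set Function
open scoped ContDiff RealInnerProductSpace
open Crest.GeometryTopology.Submanifold
open Crest.Agent.R241.DDefs Crest.Agent.R241.D2
open Crest.Agent.R208.J Crest.Agent.R208.L
open Crest.Agent.R086 Crest.Agent.R086.SH

noncomputable section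

namespace Crest.Agent.N221.T6

open Car

namespace Ev

variable {n : ℕ}

lemma ev_C (φ : Car.Sm n) (x v : EE n) : ev (MvPolynomial.C φ) x v = φ.1 x := by
  simp [ev, Co.ax_C, pfun]

lemma ev_X (i : Fin n) (x v : EE n) : ev (MvPolynomial.X i) x v = v i := by
  simp [ev, Co.ax_X, pfun]

lemma ev_add (P Q : PP n) (x v : EE n) : ev (P + Q) x v = ev P x v + ev Q x v := by
  simp [ev, Co.ax_add]

lemma ev_mul (P Q : PP n) (x v : EE n) : ev (P * Q) x v = ev P x v * ev Q x v := by
  simp [ev, Co.ax_mul]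

lemma ev_sub (P Q : PP n) (x v : EE n) : ev (P - Q) x v = ev P x v - ev Q x v := by
  simp [ev, Co.ax_sub, pfun]

lemma ev_zero (x v : EE n) : ev (0 : PP n) x v = 0 := by simp [ev, ax, pfun]

lemma ev_one (x v : EE n) : ev (1 : PP n) x v = 1 := by simp [ev, ax, pfun]

lemma ev_neg (P : PP n) (x v : EE n) : ev (-P) x v = -ev P x v := by simp [ev, ax, pfun]

lemma ev_smul (c : ℝ) (P : PP n) (x v : EE n) : ev (c • P) x v = c * ev P x v := by
  simp [ev, Co.ax_smul, pfun]

lemma ev_sum {ι : Type} (s : Finset ι) (P : ι → PP n) (x v : EE n) :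
    ev (∑ i ∈ s, P i) x v = ∑ i ∈ s, ev (P i) x v := by
  simp only [ev, Co.ax_sum, pfun_sum]

lemma un_C (φ : Car.Sm n) : uncurry (ev (MvPolynomial.C φ)) = fun z : EE n × EE n => φ.1 z.1 :=
  funext fun z => ev_C φ z.1 z.2

lemma un_add (P Q : PP n) : uncurry (ev (P + Q)) = uncurry (ev P) + uncurry (ev Q) :=
  funext fun z => ev_add P Q z.1 z.2

lemma un_X (P : PP n) (i : Fin n) :
    uncurry (ev (P * MvPolynomial.X i)) = fun z : EE n × EE n => uncurry (ev P) z * z.2 i :=
  funext fun z => (ev_mul P _ z.1 z.2).trans (by rw [ev_X]; rfl)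

lemma sm (P : PP n) : SmU (ev P) := by
  unfold SmU
  induction P using MvPolynomial.induction_on with
  | C φ => rw [un_C]; exact (Car.Sm.sm φ).comp contDiff_fst
  | add P Q hP hQ => rw [un_add]; exact hP.add hQ
  | mul_X P i hP => rw [un_X]; exact hP.mul (by fun_prop)

/-- point derivations of `PP n` -/
lemma uniq (x v a b : EE n) (D : PP n → ℝ) (hC : ∀ φ, D (MvPolynomial.C φ) = fderiv ℝ φ.1 x a)
    (hA : ∀ P Q, D (P + Q) = D P + D Q)
    (hX : ∀ P i, D (P * MvPolynomial.X i) = ev P x v * b i + v i * D P) (P : PP n) :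
    fderiv ℝ (uncurry (ev P)) (x, v) (a, b) = D P := by
  have hd : ∀ P : PP n, DifferentiableAt ℝ (uncurry (ev P)) (x, v) := fun P =>
    ContDiff.differentiable (sm P) (by simp) _
  induction P using MvPolynomial.induction_on with
  | C φ =>
    have h := HasFDerivAt.comp (x, v) (g := φ.1)
      ((Car.Sm.sm φ).differentiable (by simp) x).hasFDerivAt (hasFDerivAt_fst (𝕜 := ℝ) (p := (x, v)))
    rw [un_C, hC]
    exact congrArg (fun L => L (a, b)) h.fderiv
  | add P Q hP hQ => rw [un_add, fderiv_add (hd P) (hd Q), hA, ← hP, ← hQ]; rfl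
  | mul_X P i hP =>
    have h1 : HasFDerivAt (fun z : EE n × EE n => z.2 i)
        ((EuclideanSpace.proj i).comp (ContinuousLinearMap.snd ℝ (EE n) (EE n))) (x, v) :=
      ((EuclideanSpace.proj i).comp (ContinuousLinearMap.snd ℝ (EE n) (EE n))).hasFDerivAt
    rw [un_X, hX, ← hP]
    exact congrArg (fun L => L (a, b)) ((hd P).hasFDerivAt.mul h1).fderiv

variable {N : ℕ} {a : ℝ} {S : Set (Euc N)} {G : Geo n N (-(a ^ 2)) S} {C : Cov G} (Φ : Frm C)

/-- coordinates in the frame -/
def ad (x : Euc n) (w : Euc N) : Euc n := ∑ k, ⟪w, Φ.O x (Frm.ε k)⟫ • (Frm.ε k : Euc n)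

lemma ad_O (x v : Euc n) : ad Φ x (Φ.O x v) = v := by
  conv_rhs => rw [← Frm.sum_ε v]
  refine Finset.sum_congr rfl fun k _ => ?_
  rw [Φ.inner_O]
  simp [EuclideanSpace.inner_single_right]

lemma ad_sm : ContDiff ℝ ∞ fun z : Euc n × Euc N => ad Φ z.1 z.2 :=
  ContDiff.sum fun _ _ =>
    (contDiff_snd.inner ℝ ((Φ.col_sm _).comp contDiff_fst)).smul contDiff_const

lemma un_O {x : Euc n} {w : Euc N} (h : C.Un x w) : ∃ v, ‖v‖ = 1 ∧ Φ.O x v = w := by
  obtain ⟨v, rfl⟩ := Φ.O_surj x h.1.2
  exact ⟨v, (Φ.norm_O x v).symm.trans h.2, rfl⟩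

end Ev

open Ev

theorem evS : EvS := by
  intro n P
  refine ⟨sm P, fun x v u => ?_, fun F i x v => ?_⟩
  · refine uniq x v 0 u (fun P => ∑ i, u i * ev (pderiv i P) x v) (fun φ => by simp [ev_zero])
      (fun P Q => by simp only [map_add, ev_add, mul_add, Finset.sum_add_distrib]) (fun P j => ?_) P
    classical
    have h : ∀ i, ev (pderiv i (P * MvPolynomial.X j)) x v =
        (if i = j then ev P x v else 0) + v j * ev (pderiv i P) x v := by
      intro i
      rw [Derivation.leibniz, smul_eq_mul, smul_eq_mul, ev_add, ev_mul, ev_mul, ev_X, pderiv_X,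
        Pi.single_apply]
      by_cases e : i = j
      · simp [e, ev_one]
      · simp [e, Ne.symm e, ev_zero]
    simp only [h, mul_add, Finset.sum_add_distrib, mul_ite, mul_zero, Finset.sum_ite_eq',
      Finset.mem_univ, if_true, Finset.mul_sum, mul_comm (u j), mul_left_comm (v j)]
  · refine uniq x v _ _ (fun P => ev (F.alg.nab i P) x v) (fun φ => ?_) (fun P Q => ?_)
      (fun P j => ?_) P
    · rw [← Wz.nabD_apply, Wz.nab_C, ev_C]; rfl
    · simp only [← Wz.nabD_apply, map_add, ev_add]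
    · simp only [← Wz.nabD_apply]
      rw [Derivation.leibniz, smul_eq_mul, smul_eq_mul, ev_add, ev_mul, ev_mul, ev_X, Wz.nab_X,
        ev_neg, ev_sum]
      simp only [ev_mul, ev_C, ev_X]
      rfl

theorem famS : FamS := by
  intro n N a S G C Φ H ι _ L k hsm hfl hD
  classical
  let F : ι → Euc n → Euc N → ℝ := fun i x w => L i x (Φ.O x (‖ad Φ x w‖⁻¹ • ad Φ x w))
  have hF : ∀ i x w, C.Un x w → F i x w = L i x w := by
    intro i x w h
    obtain ⟨v, hv, rfl⟩ := un_O Φ h
    simp only [F, ad_O, hv, inv_one, one_smul]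
  have hL : ∀ y x w, Fintype.linearCombination ℝ F y x w = ∑ i, y i * F i x w := fun y x w => by
    simp [Fintype.linearCombination_apply, Finset.sum_apply]
  obtain ⟨D, P, hP, -, hu⟩ := finDeg n N a S G C Φ H (ι → ℝ) (Fintype.linearCombination ℝ F) k
    (fun y x w h => by
      obtain ⟨v, hv, rfl⟩ := un_O Φ h
      rw [show uncurry (Fintype.linearCombination ℝ F y) = fun z => ∑ i, y i * F i z.1 z.2 from
        funext fun z => hL y z.1 z.2]
      refine ContDiffAt.sum fun i _ => contDiffAt_const.mul ?_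
      refine ContDiffAt.comp (g := fun z : Euc n × Euc n => L i z.1 (Φ.O z.1 (‖z.2‖⁻¹ • z.2)))
        (f := fun z : Euc n × Euc N => (z.1, ad Φ z.1 z.2)) _ ?_
        (contDiff_fst.prodMk (ad_sm Φ)).contDiffAt
      simp only [ad_O]
      exact hsm i x v hv)
    (fun y x w h => by
      have e : (fun t => Fintype.linearCombination ℝ F y (C.gd x w t) (C.vel x w t)) =
          fun t => Real.exp (k * t) * Fintype.linearCombination ℝ F y x w := by
        funext t
        simp only [hL, hF _ _ _ h, hF _ _ _ (Cov.Un.vel C h t), hfl _ _ _ t h, Finset.mul_sum,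
          mul_left_comm]
      rw [e]
      simpa using (((hasDerivAt_id (0 : ℝ)).const_mul k).exp).mul_const
        (Fintype.linearCombination ℝ F y x w))
    (fun g hg y => by
      choose c hc using hD g hg
      refine ⟨fun j => ∑ i, y i * c i j, fun x w h => ?_⟩
      have h' : C.Un (g x) w := by unfold Cov.Un; rw [hg.pr_eq]; exact h
      simp only [hL, hF _ _ _ h, hF _ _ _ h', hc _ _ _ h, Finset.mul_sum, Finset.sum_mul, mul_assoc]
      exact Finset.sum_comm)
  refine ⟨D, fun i => P (Pi.single i 1), fun i l x => hP _ l x, fun i x v hv => ?_⟩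
  have h := hu (Pi.single i 1) x v hv
  rw [Fintype.linearCombination_apply_single, one_smul, hF _ _ _ (Φ.un hv)] at h
  rw [h, ev_sum]
  rfl

end Crest.Agent.N221.T6
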