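import Crest.Agent.N221.T6.Ev

/-!
Row 221, step P6: the affine case (`AffS`) and the assembly (`T6S`).
-/

set_option autoImplicit false

open MvPolynomial MeasureTheory Set Function Filter Topology
open scoped ContDiff RealInnerProductSpace
open Crest.GeometryTopology.Submanifold
open Crest.Agent.R241.DDefs Crest.Agent.R241.D2
open Crest.Agent.R208.J Crest.Agent.R208.L
open Crest.Agent.R086 Crest.Agent.R086.SH

noncomputable section

namespace Crest.Agent.N221.T6

open Car Ev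

namespace Mn

variable {n : ℕ}

lemma pfun0 {p : P0 n} (hp : p.IsHomogeneous 0) (v : EE n) : pfun p v = coeff 0 p := by
  rw [← totalDegree_zero_iff_isHomogeneous, totalDegree_eq_zero_iff_eq_C] at hp
  conv_lhs => rw [hp]
  simp [pfun]

lemma pfun1 {p : P0 n} (hp : p.IsHomogeneous 1) (v : EE n) :
    pfun p v = ∑ i, coeff 0 (pderiv i p) * v i := by
  have h := hp.sum_X_mul_pderiv
  rw [one_smul] at h
  conv_lhs => rw [← h, pfun_sum]
  refine Finset.sum_congr rfl fun i _ => ?_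
  rw [pfun_mul, pfun0 hp.pderiv, mul_comm]
  simp [pfun]

/-- a sum of harmonic components of degree `≤ 1` -/
lemma low (D : ℕ) (P : ℕ → PP n) (hP : ∀ l x, Sph.Harm l (ax x (P l)))
    (h2 : ∀ l, 2 ≤ l → l < D → P l = 0) : ∃ (c : EE n → ℝ) (z : Fin n → Car.Sm n),
    ∀ x v, ev (∑ l ∈ Finset.range D, P l) x v = c x + ∑ i, (z i).1 x * v i := by
  induction D with
  | zero => exact ⟨0, 0, fun x v => by simp [ev_zero]⟩
  | succ D ih =>
    obtain ⟨c, z, H⟩ := ih fun l h h' => h2 l h (by omega)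
    rcases D with _ | _ | D
    · refine ⟨fun x => c x + coeff 0 (ax x (P 0)), z, fun x v => ?_⟩
      rw [Finset.sum_range_succ, ev_add, H, ev, pfun0 (hP 0 x).hom]
      ring
    · refine ⟨c, fun i => z i + coeff 0 (pderiv i (P 1)), fun x v => ?_⟩
      rw [Finset.sum_range_succ, ev_add, H, ev, pfun1 (hP 1 x).hom, add_assoc,
        ← Finset.sum_add_distrib]
      refine congrArg _ (Finset.sum_congr rfl fun i _ => ?_)
      rw [← R1.ax_pderiv, R1.coeff_ax, ← add_mul]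
      rfl
    · refine ⟨c, z, fun x v => ?_⟩
      rw [Finset.sum_range_succ, h2 _ (by omega) (by omega), add_zero, H]

variable {N : ℕ} {a : ℝ} {S : Set (Euc N)} {G : Geo n N (-(a ^ 2)) S} {C : Cov G} (Φ : Frm C)

lemma sm_O (x : Euc n) {v : Euc n} (hv : ‖v‖ = 1) :
    ContDiffAt ℝ ∞ (fun z : Euc n × Euc n => Φ.O z.1 (‖z.2‖⁻¹ • z.2)) (x, v) :=
  (Φ.O_sm.contDiffAt.comp _ contDiffAt_fst).clm_apply
    ((((contDiffAt_norm ℝ (Cov.bas_ne0 hv)).comp (x, v) contDiffAt_snd).inv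
      (by simp [hv])).smul contDiffAt_snd)

lemma ev_un (x : Euc n) {v : Euc n} (hv : ‖v‖ = 1) :
    ∀ᶠ z : Euc n × Euc n in 𝓝 (x, v), C.Un z.1 (Φ.O z.1 (‖z.2‖⁻¹ • z.2)) :=
  ((continuousAt_snd (p := (x, v))).eventually_ne (Cov.bas_ne0 hv)).mono fun _ hz =>
    Φ.un (norm_smul_inv_norm hz)

end Mn

open Mn

theorem affS : AffS := by
  intro n N a S G C Φ h Y f D P hP h2 hμ
  obtain ⟨c, z, H⟩ := low D P hP h2
  have key : ∀ x w, C.Un x w →
      C.muK Y f x w = c x + ⟪∑ i, (z i).1 x • Φ.O x (Frm.ε i), w⟫ := by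
    intro x w hw
    obtain ⟨v, hv, rfl⟩ := un_O Φ hw
    rw [hμ x v hv, H, sum_inner]
    refine congrArg _ (Finset.sum_congr rfl fun i _ => ?_)
    rw [real_inner_smul_left, Φ.inner_O]
    simp [EuclideanSpace.inner_single_left]
  have hc : ∀ x w, C.Un x w → C.muK Y f x w + C.muK Y f x (-w) = 2 * c x := by
    intro x w hw
    rw [key x w hw, key x _ hw.neg, inner_neg_right]
    ring
  have hg : ∀ x, c x = c 0 := by
    intro x
    by_cases e : (0 : Euc n) = x
    · rw [e]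
    have hw := C.un_dir e
    have h1 := hc _ _ (hw.vel C (C.dd 0 x))
    have h3 := C.muK_gd (Y := Y) (f := f) h hw.neg (-C.dd 0 x)
    rw [C.gd_neg, C.vel_neg hw.mem, neg_neg] at h3
    rw [C.muK_gd h hw, h3, hc _ _ hw, C.gd_dir] at h1
    linarith
  refine ⟨fun x => ∑ i, (z i).1 x • Φ.O x (Frm.ε i), c 0, ?_, fun x => ?_, fun x v hv => ?_⟩
  · exact (ContDiff.sum fun i _ => (Car.Sm.sm (z i)).smul (Φ.col_sm _)).differentiable (by simp)
  · exact Submodule.sum_mem _ fun i _ => Submodule.smul_mem _ _ (Φ.O_mem _ _)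
  · rw [key x v hv, hg]

theorem t6S (hF : FamS) (hB : BrS) (hT : TopS) (hA : AffS) : T6S := by
  intro n N a S G C h hh h0 ι _ Y f hK hD κ _ φ hφ hne hdk hcl i
  obtain ⟨Φ⟩ := frmExS n N a S G C
  have ha := h.hyp.a_pos
  obtain ⟨D, P, hP, eP⟩ := hF n N a S G C Φ h.hyp ι (fun i => C.muK (Y i) (f i)) 0
    (fun i x v hv => by
      obtain ⟨Y', f', K⟩ := hK i
      exact C.contDiffAt_muK h K contDiffAt_fst (sm_O Φ x hv) (ev_un Φ x hv))
    (fun i x w t hw => by rw [zero_mul, Real.exp_zero, one_mul]; exact C.muK_gd h hw t) hD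
  obtain ⟨D', A, hA', eA⟩ := hF n N a S G C Φ h.hyp κ (fun j => C.uu hh (φ j)) hh
    (fun j x v hv => by
      have hu := ev_un Φ x hv
      have c1 := C.contDiffAt_Psi h contDiffAt_fst (sm_O Φ x hv) hu
      have c2 := C.contDiffAt_ep h contDiffAt_fst (sm_O Φ x hv) hu
      exact (contDiffAt_const.mul c1.snd).exp.mul
        ((hφ j _ (C.norm_ep ha hu.self_of_nhds)).comp (x, v) c2))
    (fun j x w t hw => by
      simp only [Cov.uu]
      rw [C.Psi_gd h hw, C.ep_gd ha hw, mul_add, Real.exp_add]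
      ring)
    (fun g hg j => by
      obtain ⟨c, hc⟩ := hdk g hg j
      refine ⟨c, fun x w hw => ?_⟩
      have e := hc _ (C.norm_ep ha hw)
      simp only [Cov.uu]
      rw [C.Psi_deck h hg hw, ← C.act_ep ha hg hw, mul_add, Real.exp_add, mul_assoc,
        show (C.PsiB x w).1.1 = C.ep x w from rfl, e, Finset.mul_sum]
      exact Finset.sum_congr rfl fun _ _ => by ring)
  obtain ⟨Y', f', K⟩ := hK i
  refine hA n N a S G C Φ h (Y i) (f i) D (P i) (hP i) ?_ (eP i)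
  refine hT n h.hyp.hn Φ.fr hh h0 D D' (P i) κ A (hP i) hA' (fun x => ?_) fun j => ?_
  · obtain ⟨j, ξ, hξ, e⟩ := hne
    obtain ⟨v, hv, e1⟩ := un_O Φ (C.un_W ha (Cov.bas_ne0 hξ) x)
    refine ⟨j, v, hv, ?_⟩
    rw [← eA j x v hv, e1]
    simp only [Cov.uu]
    rw [C.ep_W ha hξ]
    exact mul_ne_zero (Real.exp_pos _).ne' e
  · obtain ⟨c, hc⟩ := hcl i j
    refine ⟨c, fun x v hv => ?_⟩
    rw [← hB n N a S G C Φ h _ _ _ _ K hh (φ j) (hφ j) _ _ (eP i) (eA j) x v hv]
    simp only [← eA _ x v hv, Cov.uu]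
    rw [hc _ (C.norm_ep ha (Φ.un hv)), Finset.mul_sum]
    exact Finset.sum_congr rfl fun _ _ => by ring

end Crest.Agent.N221.T6
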