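import Crest.Agent.N221.T6.Defs
import Crest.Agent.N221.Car.All

/-! Row 221, step P6: the top degree argument. -/

set_option autoImplicit false

open MvPolynomial MeasureTheory Set Function
open scoped ContDiff RealInnerProductSpace
open Crest.Agent.R086 Crest.Agent.R086.SH

noncomputable section

namespace Crest.Agent.N221.T6

open Car Car.Co

variable {n : ℕ}

namespace Tp

/-- polynomials of degree `< d` -/
def DL (n d : ℕ) : Submodule ℝ (P0 n) where
  carrier := {p | ∀ s : Fin n →₀ ℕ, d ≤ s.degree → coeff s p = 0}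
  add_mem' hp hq s hs := by rw [coeff_add, hp s hs, hq s hs, add_zero]
  zero_mem' s _ := coeff_zero s
  smul_mem' c p hp s hs := by rw [coeff_smul, hp s hs, smul_zero]

variable {a b d : ℕ} {p q : P0 n}

lemma dl_mono (h : p ∈ DL n a) (hab : a ≤ b) : p ∈ DL n b := fun s hs => h s (hab.trans hs)

lemma dl_hom (h : p.IsHomogeneous a) (had : a < d) : p ∈ DL n d := fun s hs =>
  h.coeff_eq_zero (by omega)

lemma dl_mul (hp : p ∈ DL n a) (hq : q ∈ DL n b) (h : a + b ≤ d + 1) : p * q ∈ DL n d := by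
  classical
  intro s hs
  rw [coeff_mul]
  refine Finset.sum_eq_zero fun x hx => ?_
  rw [← Finset.HasAntidiagonal.mem_antidiagonal.1 hx, map_add] at hs
  rcases le_or_gt a x.1.degree with h1 | h1
  · rw [hp _ h1, zero_mul]
  · rw [hq _ (by omega), mul_zero]

lemma dl_pd (hp : p ∈ DL n (a + 1)) (i : Fin n) : pderiv i p ∈ DL n a := fun s hs => by
  rw [coeff_pderiv, hp _ (by rw [map_add, Finsupp.degree_single]; omega), zero_mul]

lemma dl_sum (s : Finset ℕ) {f : ℕ → P0 n} (hf : ∀ l, (f l).IsHomogeneous l)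
    (h : ∀ l ∈ s, d ≤ l → f l = 0) : ∑ l ∈ s, f l ∈ DL n d :=
  Submodule.sum_mem _ fun l hl => (le_or_gt d l).elim (fun e => h l hl e ▸ Submodule.zero_mem _)
    (dl_hom (hf l))

lemma dl_top {D : ℕ} {f : ℕ → P0 n} (hf : ∀ l, (f l).IsHomogeneous l) (hd : d < D)
    (h : ∀ l < D, d < l → f l = 0) : ∑ l ∈ Finset.range D, f l - f d ∈ DL n d := by
  rw [← Finset.sum_erase_eq_sub (Finset.mem_range.2 hd)]
  exact dl_sum _ hf fun l hl e => h l (Finset.mem_range.1 (Finset.mem_of_mem_erase hl))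
    (lt_of_le_of_ne e (Finset.ne_of_mem_erase hl).symm)

lemma hom_nab (F : Fr n) (i : Fin n) {Q : PP n} (h : ∀ y, (ax y Q).IsHomogeneous a) (x : EE n) :
    (ax x (F.alg.nab i Q)).IsHomogeneous a := by
  rw [AFr.nab, ax_sub, ax_rot]
  refine IsHomogeneous.sub (fun s hs => by_contra fun e => hs ?_)
    (IsHomogeneous.sum _ _ _ fun a _ => IsHomogeneous.sum _ _ _ fun b _ =>
      (Pol2.hom_X_pd (h x) a b).C_mul _)
  have h1 : coeff s Q = 0 := Subtype.ext (funext fun y => by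
    rw [← coeff_ax]; exact by_contra fun e' => e (h y e'))
  rw [coeff_ax, coeff_cD, h1, map_zero]
  rfl

lemma nab_sum (F : Fr n) (i : Fin n) (s : Finset ℕ) (Q : ℕ → PP n) :
    F.alg.nab i (∑ l ∈ s, Q l) = ∑ l ∈ s, F.alg.nab i (Q l) := by
  simp only [AFr.nab, rot, map_sum, Finset.mul_sum, Finset.sum_sub_distrib]
  congr 1
  rw [Finset.sum_comm (s := s)]
  exact Finset.sum_congr rfl fun a _ => Finset.sum_comm

lemma ax_Eu (x : EE n) (s : Finset ℕ) {Q : ℕ → PP n} (h : ∀ l, (ax x (Q l)).IsHomogeneous l) :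
    ax x (∑ l ∈ s, Q l - Eu (∑ l ∈ s, Q l)) = ∑ l ∈ s, (1 - (l : ℝ)) • ax x (Q l) := by
  simp only [Eu, ax_sub, ax_sum, ax_mul, ax_X, ax_pderiv, map_sum, Finset.mul_sum, sub_smul,
    one_smul, Finset.sum_sub_distrib, ← Pol1.euler (h _)]
  rw [Finset.sum_comm]

lemma ex_max (r : ℕ → Prop) {D l : ℕ} (hl : l < D) (h : r l) :
    ∃ k, l ≤ k ∧ k < D ∧ r k ∧ ∀ m < D, k < m → ¬ r m := by
  classical
  exact ⟨Nat.findGreatest r (D - 1), Nat.le_findGreatest (by omega) h,
    by have := Nat.findGreatest_le (P := r) (D - 1); omega,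
    Nat.findGreatest_spec (m := l) (by omega) h,
    fun m h1 h2 => Nat.findGreatest_is_greatest h2 (by omega)⟩

end Tp

open Tp

theorem topS (hA : AlgS) : TopS := by
  intro n hn F hh h0 D D' P κ _ A hP hA' hne hid l h2 hl
  by_contra hc
  obtain ⟨k, k1, k2, k3, k4⟩ := ex_max (fun l => P l ≠ 0) hl hc
  simp only [not_not] at k4
  have hK : IsClosed {x | ax x (P k) = 0} := by
    simp only [MvPolynomial.ext_iff, coeff_ax, ofPred_forall]
    exact isClosed_iInter fun s => isClosed_eq (Sm.sm _).continuous continuous_const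
  obtain ⟨x0, hx0⟩ : ∃ x, ax x (P k) ≠ 0 := by
    by_contra! e
    exact k3 (R1.ax_ext fun x => (e x).trans (map_zero _).symm)
  obtain ⟨l0, l1, l2⟩ : ∃ l < D', ∃ j x, ax x (P k) ≠ 0 ∧ ax x (A j l) ≠ 0 := by
    obtain ⟨j, v, -, e⟩ := hne x0
    by_contra! e'
    refine e ?_
    rw [ev, ax_sum, Finset.sum_eq_zero fun l hl => e' l (Finset.mem_range.1 hl) j x0 hx0]
    simp [pfun]
  obtain ⟨J, -, J2, ⟨j, x, x1, x2⟩, J4⟩ :=
    ex_max (fun l => ∃ j x, ax x (P k) ≠ 0 ∧ ax x (A j l) ≠ 0) l1 l2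
  have hS : ∀ j', ∀ m < D', J < m → Sup {x | ax x (P k) = 0} (A j' m) := fun j' m m1 m2 y hy =>
    by_contra fun e => J4 m m1 m2 ⟨j', y, hy, e⟩
  obtain ⟨c, hc⟩ := hid j
  have a1 : ∀ j', ax x (∑ l ∈ Finset.range D', A j' l) ∈ DL n (J + 1) := fun j' => by
    rw [ax_sum]
    exact dl_sum _ (fun l => (hA' j' l x).hom) fun l hl e => hS j' l (Finset.mem_range.1 hl) e x x1
  have a2 : ∀ i, ax x (F.alg.nab i (∑ l ∈ Finset.range D', A j l)) ∈ DL n (J + 1) := fun i => by
    rw [nab_sum, ax_sum]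
    exact dl_sum _ (fun l => hom_nab F i (fun y => (hA' j l y).hom) x) fun l hl e =>
      (hS j l (Finset.mem_range.1 hl) e).nab hK F i x x1
  have a3 : ax x (∑ l ∈ Finset.range D', A j l) - ax x (A j J) ∈ DL n J := by
    rw [ax_sum]
    exact dl_top (f := fun l => ax x (A j l)) (fun l => (hA' j l x).hom) J2
      fun l hl e => hS j l hl e x x1
  have p1 : ax x (∑ l ∈ Finset.range D, P l) ∈ DL n (k + 1) := by
    rw [ax_sum]
    exact dl_sum _ (fun l => (hP l x).hom) fun l hl e => by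
      rw [k4 l (Finset.mem_range.1 hl) e]; exact map_zero _
  have p2 : ∀ i, ax x (F.alg.nab i (∑ l ∈ Finset.range D, P l)) ∈ DL n (k + 1) := fun i => by
    rw [nab_sum, ax_sum]
    exact dl_sum _ (fun l => hom_nab F i (fun y => (hP l y).hom) x) fun l hl e => by
      rw [k4 l (Finset.mem_range.1 hl) e]; simp [AFr.nab, rot, ax]
  have p3 : ax x (∑ l ∈ Finset.range D, P l - Eu (∑ l ∈ Finset.range D, P l)) -
      (1 - (k : ℝ)) • ax x (P k) ∈ DL n k := by
    rw [ax_Eu x _ fun l => (hP l x).hom]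
    exact dl_top (f := fun l => (1 - (l : ℝ)) • ax x (P l))
      (fun l => (homogeneousSubmodule (Fin n) ℝ l).smul_mem _ (hP l x).hom) k2 fun l hl e => by
        rw [k4 l hl e]; simp [ax]
  have b1 : ax x (br F (∑ l ∈ Finset.range D, P l) (∑ l ∈ Finset.range D', A j l)) ∈
      DL n (k + J) := by
    rw [br, ax_sum]
    refine Submodule.sum_mem _ fun i _ => ?_
    rw [ax_sub, ax_mul, ax_mul, ax_pderiv, ax_pderiv]
    exact Submodule.sub_mem _ (dl_mul (dl_pd p1 i) (a2 i) (by omega))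
      (dl_mul (p2 i) (dl_pd (a1 j) i) (by omega))
  have hk : hh * (1 - (k : ℝ)) ≠ 0 := mul_ne_zero h0 (sub_ne_zero.2 (by
    exact_mod_cast (by omega : 1 ≠ k)))
  have pk := dl_hom (hP k x).hom (Nat.lt_succ_self k)
  refine (hA n hn k J _ _ _ (hP k x) (hA' j J x) ((DL n (k + J)).smul_mem (hh * (1 - (k : ℝ)))⁻¹
    (Submodule.sub_mem _ (Submodule.sub_mem _ (Submodule.sum_mem _ (t := Finset.univ) fun j' _ =>
      Submodule.smul_mem _ (c j') (dl_mono (a1 j') (by omega))) b1)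
      (Submodule.smul_mem _ hh (Submodule.add_mem _ (dl_mul p3 (a1 j) (by omega))
        (Submodule.smul_mem _ (1 - (k : ℝ)) (dl_mul pk a3 (by omega))))))) fun v hv => ?_).elim x1 x2
  have e := hc x v hv
  simp only [ev, ax_add, ax_smul, ax_mul, pfun_add, pfun_mul, Pol3.pfun_smul] at e
  simp only [pfun_add, pfun_mul, Pol3.pfun_smul, Pol3.pfun_sub, pfun_sum _ (fun j' => c j' • _), e]
  rw [eq_inv_mul_iff_mul_eq₀ hk]
  ring

end Crest.Agent.N221.T6
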