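import Crest.Agent.N221.Car.BrDefs
import Crest.Agent.N221.Bd.P7

/-!
Row 221, step P6 (helper34): the Hamiltonian of a Killing pair is affine in `v`.

`μ = muK Y f` and `u = e^{h s} φ(ξ)` are polynomial in `v` (finite degree).  The lift `Ỹ` of the
pair acts by `Ỹ u = {μ, u} + h (μ - E μ) u` on `|v| = 1`; its top degree part `(1 - k) h P_k A_J`
cannot be a multiple of `|v|²` when `k ≥ 2`.
-/

set_option autoImplicit false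

open MvPolynomial MeasureTheory Set Function
open scoped ContDiff RealInnerProductSpace
open Crest.GeometryTopology.Submanifold
open Crest.Agent.R241.DDefs Crest.Agent.R241.D2
open Crest.Agent.R208.J Crest.Agent.R208.L
open Crest.Agent.R086 Crest.Agent.R086.SH

noncomputable section

namespace Crest.Agent.N221

/-- the function `e^{h s} φ(ξ)` on the unit tangent bundle of the cover -/
def Cov.uu {n N : ℕ} {a : ℝ} {S : Set (Euc N)} {G : Geo n N (-(a ^ 2)) S} (C : Cov G)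
    (hh : ℝ) (φ : Euc n → ℝ) (x : Euc n) (w : Euc N) : ℝ :=
  Real.exp (hh * (C.PsiB x w).2) * φ (C.ep x w)

namespace T6

open Car

variable {n : ℕ}

/-- a fibre polynomial as a function -/
def ev (P : PP n) (x v : EE n) : ℝ := pfun (ax x P) v

/-- Euler operator -/
def Eu (P : PP n) : PP n := ∑ i, MvPolynomial.X i * pderiv i P

/-- Poisson bracket -/
def br (F : Fr n) (P A : PP n) : PP n :=
  ∑ i, (pderiv i P * F.alg.nab i A - F.alg.nab i P * pderiv i A)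

/-- a product of two harmonic polynomials is not of lower degree on the sphere -/
def AlgS : Prop := ∀ n : ℕ, 3 ≤ n → ∀ (k J : ℕ) (p A q : P0 n), Sph.Harm k p → Sph.Harm J A →
  (∀ s : Fin n →₀ ℕ, k + J ≤ s.degree → coeff s q = 0) →
  (∀ v : EE n, ‖v‖ = 1 → pfun (p * A) v = pfun q v) → p = 0 ∨ A = 0

/-- derivatives of `ev` -/
def EvS : Prop := ∀ (n : ℕ) (P : PP n), SmU (ev P) ∧
  (∀ x v u : EE n,
    fderiv ℝ (uncurry (ev P)) (x, v) (0, u) = ∑ i, u i * ev (pderiv i P) x v) ∧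
  ∀ (F : Fr n) (i : Fin n) (x v : EE n), F.nabU i (ev P) x v = ev (F.alg.nab i P) x v

/-- the top degree argument -/
def TopS : Prop := ∀ n : ℕ, 3 ≤ n → ∀ (F : Fr n) (hh : ℝ), hh ≠ 0 →
  ∀ (D D' : ℕ) (P : ℕ → PP n) (κ : Type) [Fintype κ] (A : κ → ℕ → PP n),
  (∀ l x, Sph.Harm l (ax x (P l))) → (∀ j l x, Sph.Harm l (ax x (A j l))) →
  (∀ x, ∃ j v, ‖v‖ = 1 ∧ ev (∑ l ∈ Finset.range D', A j l) x v ≠ 0) →
  (∀ j, ∃ c : κ → ℝ, ∀ x v, ‖v‖ = 1 →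
    ∑ j', c j' * ev (∑ l ∈ Finset.range D', A j' l) x v =
      ev (br F (∑ l ∈ Finset.range D, P l) (∑ l ∈ Finset.range D', A j l) +
        hh • ((∑ l ∈ Finset.range D, P l - Eu (∑ l ∈ Finset.range D, P l)) *
          ∑ l ∈ Finset.range D', A j l)) x v) →
  ∀ l, 2 ≤ l → l < D → P l = 0

/-- finite degree for a finite family given on unit vectors only -/
def FamS : Prop := ∀ (n N : ℕ) (a : ℝ) (S : Set (Euc N)) (G : Geo n N (-(a ^ 2)) S) (C : Cov G)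
  (Φ : Frm C), Hyp n N a S →
  ∀ (ι : Type) [Fintype ι] (L : ι → Euc n → Euc N → ℝ) (k : ℝ),
  (∀ i x v, ‖v‖ = 1 → ContDiffAt ℝ ∞
    (fun z : Euc n × Euc n => L i z.1 (Φ.O z.1 (‖z.2‖⁻¹ • z.2))) (x, v)) →
  (∀ i x w t, C.Un x w → L i (C.gd x w t) (C.vel x w t) = Real.exp (k * t) * L i x w) →
  (∀ g, C.Deck g → ∀ i, ∃ c : ι → ℝ, ∀ x w, C.Un x w → L i (g x) w = ∑ j, c j * L j x w) →
  ∃ (D : ℕ) (P : ι → ℕ → PP n), (∀ i l x, Sph.Harm l (ax x (P i l))) ∧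
    ∀ i x v, ‖v‖ = 1 → L i x (Φ.O x v) = ev (∑ l ∈ Finset.range D, P i l) x v

/-- the bracket formula -/
def BrS : Prop := ∀ (n N : ℕ) (a : ℝ) (S : Set (Euc N)) (G : Geo n N (-(a ^ 2)) S) (C : Cov G)
  (Φ : Frm C), SH G → ∀ (Y : Euc n → Euc n) (f : Euc n → ℝ) (Y' : Euc n → Euc n) (f' : Euc n → ℝ),
  C.Kill Y f Y' f' → ∀ (hh : ℝ) (φ : Euc n → ℝ), (∀ ξ, ‖ξ‖ = 1 → ContDiffAt ℝ ∞ φ ξ) →
  ∀ P A : PP n, (∀ x v, ‖v‖ = 1 → C.muK Y f x (Φ.O x v) = ev P x v) →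
  (∀ x v, ‖v‖ = 1 → C.uu hh φ x (Φ.O x v) = ev A x v) → ∀ x v, ‖v‖ = 1 →
  C.uu hh (fun ξ => fderiv ℝ φ ξ (Y ξ) + hh * f ξ * φ ξ) x (Φ.O x v) =
    ev (br Φ.fr P A + hh • ((P - Eu P) * A)) x v

/-- a flow invariant function of degree `≤ 1` -/
def AffS : Prop := ∀ (n N : ℕ) (a : ℝ) (S : Set (Euc N)) (G : Geo n N (-(a ^ 2)) S) (C : Cov G)
  (Φ : Frm C), SH G → ∀ (Y : Euc n → Euc n) (f : Euc n → ℝ) (D : ℕ) (P : ℕ → PP n),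
  (∀ l x, Sph.Harm l (ax x (P l))) → (∀ l, 2 ≤ l → l < D → P l = 0) →
  (∀ x v, ‖v‖ = 1 → C.muK Y f x (Φ.O x v) = ev (∑ l ∈ Finset.range D, P l) x v) →
  ∃ Z c, C.Lin Y f Z c

/-- STEP P6 -/
def T6S : Prop := ∀ (n N : ℕ) (a : ℝ) (S : Set (Euc N)) (G : Geo n N (-(a ^ 2)) S) (C : Cov G),
  SH G → ∀ hh : ℝ, hh ≠ 0 →
  ∀ (ι : Type) [Fintype ι] (Y : ι → Euc n → Euc n) (f : ι → Euc n → ℝ),
  (∀ i, ∃ Y' f', C.Kill (Y i) (f i) Y' f') →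
  (∀ g, C.Deck g → ∀ i, ∃ c : ι → ℝ, ∀ x w, C.Un x w →
    C.muK (Y i) (f i) (g x) w = ∑ j, c j * C.muK (Y j) (f j) x w) →
  ∀ (κ : Type) [Fintype κ] (φ : κ → Euc n → ℝ),
  (∀ j ξ, ‖ξ‖ = 1 → ContDiffAt ℝ ∞ (φ j) ξ) → (∃ j ξ, ‖ξ‖ = 1 ∧ φ j ξ ≠ 0) →
  (∀ g, C.Deck g → ∀ j, ∃ c : κ → ℝ, ∀ ξ, ‖ξ‖ = 1 →
    Real.exp (hh * C.be g ξ) * φ j (C.act g ξ) = ∑ j', c j' * φ j' ξ) →
  (∀ i j, ∃ c : κ → ℝ, ∀ ξ, ‖ξ‖ = 1 →
    fderiv ℝ (φ j) ξ (Y i ξ) + hh * f i ξ * φ j ξ = ∑ j', c j' * φ j' ξ) →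
  ∀ i, ∃ Z c, C.Lin (Y i) (f i) Z c

end T6

end Crest.Agent.N221
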