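import Crest.Agent.N221.T6.Alg
import Crest.Agent.N221.T6.Ev
import Crest.Agent.N221.T6.Top
import Crest.Agent.N221.T6.Br
import Crest.Agent.N221.T6.Main

/-!
Row 221, step P6 (helper34): the statement without hypotheses.
-/

set_option autoImplicit false

namespace Crest.Agent.N221.T6

/-- STEP P6 -/
theorem t6 : T6S := t6S famS (brS evS) (topS algS) affS

end Crest.Agent.N221.T6
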